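import Mathlib

/-! Row 346: positive definite matrices as bilinear forms (helper14).

`qb A v w = ∑ i j, A i j * v i * w j`; simultaneous diagonalisation and its consequences
(Cauchy-Schwarz, duality, monotonicity of `det`, of the inverse and of the adjugate). -/

set_option autoImplicit false

open Matrix Finset

namespace Crest.Agent.N346.Bs

variable {n : ℕ} {A B : Matrix (Fin n) (Fin n) ℝ}

/-- the bilinear form of a matrix (`quadForm g x v = qb (g x) v v` by `rfl`) -/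
def qb (A : Matrix (Fin n) (Fin n) ℝ) (v w : Fin n → ℝ) : ℝ := ∑ i, ∑ j, A i j * v i * w j

theorem qb_eq_dot (A : Matrix (Fin n) (Fin n) ℝ) (v w : Fin n → ℝ) :
    qb A v w = v ⬝ᵥ A *ᵥ w := by
  simp only [qb, dotProduct, mulVec, mul_sum]
  exact sum_congr rfl fun i _ => sum_congr rfl fun j _ => by ring

theorem qb_one (v w : Fin n → ℝ) : qb 1 v w = ∑ i, v i * w i := by
  rw [qb_eq_dot, one_mulVec]; rfl

theorem qb_smul (c : ℝ) (A : Matrix (Fin n) (Fin n) ℝ) (v w : Fin n → ℝ) :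
    qb (c • A) v w = c * qb A v w := by
  simp only [qb, Matrix.smul_apply, smul_eq_mul, mul_sum, mul_assoc]

theorem qb_comm (hA : ∀ i j, A i j = A j i) (v w : Fin n → ℝ) : qb A v w = qb A w v := by
  rw [qb, sum_comm]
  exact sum_congr rfl fun i _ => sum_congr rfl fun j _ => by rw [hA]; ring

theorem posDef_symm (hA : A.PosDef) (i j : Fin n) : A i j = A j i := by
  simpa using hA.1.apply j i

theorem qb_nonneg (hA : A.PosDef) (v : Fin n → ℝ) : 0 ≤ qb A v v := by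
  rw [qb_eq_dot]; simpa using hA.posSemidef.dotProduct_mulVec_nonneg v

theorem qb_pos (hA : A.PosDef) {v : Fin n → ℝ} (hv : v ≠ 0) : 0 < qb A v v := by
  rw [qb_eq_dot]; simpa using hA.dotProduct_mulVec_pos hv

theorem posDef_of_qb (hs : ∀ i j, A i j = A j i) (h : ∀ v, v ≠ 0 → 0 < qb A v v) : A.PosDef :=
  .of_dotProduct_mulVec_pos (by ext i j; simpa using hs j i) fun v hv => by
    simpa [qb_eq_dot] using h v hv

theorem qb_conj (P : Matrix (Fin n) (Fin n) ℝ) (d v w : Fin n → ℝ) :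
    qb (Pᵀ * diagonal d * P) v w = ∑ i, d i * ((P *ᵥ v) i * (P *ᵥ w) i) := by
  rw [qb_eq_dot, ← mulVec_mulVec, ← mulVec_mulVec, dotProduct_mulVec, vecMul_transpose, dotProduct]
  exact sum_congr rfl fun i _ => by rw [mulVec_diagonal]; ring

/-- `∑ j, A i j * A⁻¹ j k = δ` -/
theorem sum_mul_inv (hA : A.PosDef) (i k : Fin n) :
    ∑ j, A i j * A⁻¹ j k = if i = k then 1 else 0 := by
  have := congrFun (congrFun (mul_nonsing_inv A hA.det_pos.ne'.isUnit) i) k
  rwa [mul_apply, one_apply] at this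

theorem sum_inv_mul (hA : A.PosDef) (i k : Fin n) :
    ∑ j, A⁻¹ i j * A j k = if i = k then 1 else 0 := by
  have := congrFun (congrFun (nonsing_inv_mul A hA.det_pos.ne'.isUnit) i) k
  rwa [mul_apply, one_apply] at this

open scoped MatrixOrder in
/-- simultaneous diagonalisation -/
theorem simul_diag (hA : A.PosDef) (hB : ∀ i j, B i j = B j i) :
    ∃ (P : Matrix (Fin n) (Fin n) ℝ) (d : Fin n → ℝ), IsUnit P.det ∧ A = Pᵀ * P ∧
      B = Pᵀ * diagonal d * P := by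
  obtain ⟨S, hS⟩ := CStarAlgebra.nonneg_iff_eq_star_mul_self.mp hA.posSemidef.nonneg
  rw [star_eq_conjTranspose, conjTranspose_eq_transpose_of_trivial] at hS
  have hd : IsUnit S.det := by
    have := hA.det_pos.ne'
    rw [hS, det_mul] at this
    exact (right_ne_zero_of_mul this).isUnit
  have hBt : Bᵀ = B := by ext i j; exact hB j i
  have hM : ((S⁻¹)ᵀ * B * S⁻¹).IsHermitian := by
    rw [IsHermitian, conjTranspose_eq_transpose_of_trivial, transpose_mul, transpose_mul,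
      transpose_transpose, hBt, Matrix.mul_assoc]
  have h1 := hM.spectral_theorem
  rw [Unitary.conjStarAlgAut_apply, star_eq_conjTranspose,
    conjTranspose_eq_transpose_of_trivial] at h1
  have h2 : (hM.eigenvectorUnitary : Matrix (Fin n) (Fin n) ℝ) *
      (hM.eigenvectorUnitary : Matrix (Fin n) (Fin n) ℝ)ᵀ = 1 := by
    have := Unitary.coe_mul_star_self hM.eigenvectorUnitary
    rwa [Unitary.coe_star, star_eq_conjTranspose, conjTranspose_eq_transpose_of_trivial] at this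
  generalize (hM.eigenvectorUnitary : Matrix (Fin n) (Fin n) ℝ) = U at h1 h2
  refine ⟨Uᵀ * S, hM.eigenvalues, ?_, ?_, ?_⟩
  · rw [det_mul]
    refine IsUnit.mul ?_ hd
    have := congrArg det h2
    rw [det_mul, det_one] at this
    exact (right_ne_zero_of_mul (this ▸ one_ne_zero)).isUnit
  · rw [transpose_mul, transpose_transpose, Matrix.mul_assoc, ← Matrix.mul_assoc U, h2,
      Matrix.one_mul, hS]
  · have h3 : B = Sᵀ * ((S⁻¹)ᵀ * B * S⁻¹) * S := by
      rw [Matrix.mul_assoc, Matrix.mul_assoc, nonsing_inv_mul S hd, Matrix.mul_one,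
        ← Matrix.mul_assoc, ← transpose_mul, nonsing_inv_mul S hd, transpose_one, Matrix.one_mul]
    refine h3.trans ((congrArg (Sᵀ * · * S) h1).trans ?_)
    simp only [transpose_mul, transpose_transpose, Matrix.mul_assoc]
    rfl

/-- both forms and both inverse forms in diagonal form -/
theorem exists_diag (hA : A.PosDef) (hB : B.PosDef) :
    ∃ (d : Fin n → ℝ) (P Q : (Fin n → ℝ) → Fin n → ℝ), (∀ i, 0 < d i) ∧ B.det = A.det * ∏ i, d i ∧
      (∀ v w, qb A v w = ∑ i, P v i * P w i) ∧ (∀ v w, qb B v w = ∑ i, d i * (P v i * P w i)) ∧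
      (∀ v w, qb A⁻¹ v w = ∑ i, Q v i * Q w i) ∧
      (∀ v w, qb B⁻¹ v w = ∑ i, (d i)⁻¹ * (Q v i * Q w i)) ∧
      (∀ i, ∃ v, P v = Pi.single i 1) ∧ ∀ ξ v, ∑ i, ξ i * v i = ∑ i, Q ξ i * P v i := by
  obtain ⟨P, d, hP, h1, h2⟩ := simul_diag hA (posDef_symm hB)
  have hs : ∀ i, ∃ v, P *ᵥ v = Pi.single i 1 := fun i =>
    ⟨P⁻¹ *ᵥ Pi.single i 1, by rw [mulVec_mulVec, mul_nonsing_inv P hP, one_mulVec]⟩
  have hd : ∀ i, 0 < d i := fun i => by
    obtain ⟨v, hv⟩ := hs i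
    have h3 := qb_pos hB (v := v) (by
      rintro rfl
      simpa using congrFun hv i)
    rw [h2, qb_conj, hv, sum_eq_single i (fun j _ hj => by simp [hj]) (by simp)] at h3
    simpa using h3
  have hinv : ∀ e : Fin n → ℝ, (∀ i, e i ≠ 0) → (Pᵀ * diagonal e * P)⁻¹ =
      ((P⁻¹)ᵀ)ᵀ * diagonal (fun i => (e i)⁻¹) * (P⁻¹)ᵀ := fun e he => by
    refine inv_eq_right_inv ?_
    rw [transpose_transpose, Matrix.mul_assoc, Matrix.mul_assoc, Matrix.mul_assoc,
      ← Matrix.mul_assoc P, mul_nonsing_inv P hP, Matrix.one_mul, ← Matrix.mul_assoc (diagonal e),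
      diagonal_mul_diagonal]
    simp only [mul_inv_cancel₀ (he _), diagonal_one, Matrix.one_mul]
    rw [← transpose_mul, nonsing_inv_mul P hP, transpose_one]
  have h1' : A = Pᵀ * diagonal (fun _ => 1) * P := by rw [diagonal_one, Matrix.mul_one, h1]
  refine ⟨d, fun v => P *ᵥ v, fun v => (P⁻¹)ᵀ *ᵥ v, hd, ?_, fun v w => ?_, fun v w => ?_,
    fun v w => ?_, fun v w => ?_, hs, fun ξ v => ?_⟩
  · rw [h2, h1, det_mul, det_mul, det_mul, det_diagonal]; ring
  · rw [h1', qb_conj]; simp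
  · rw [h2, qb_conj]
  · rw [h1', hinv _ fun _ => one_ne_zero, qb_conj]; simp
  · rw [h2, hinv _ fun i => (hd i).ne', qb_conj]
  · change ξ ⬝ᵥ v = ((P⁻¹)ᵀ *ᵥ ξ) ⬝ᵥ (P *ᵥ v)
    rw [mulVec_transpose, ← dotProduct_mulVec, mulVec_mulVec, nonsing_inv_mul P hP, one_mulVec]

/-- Cauchy-Schwarz -/
theorem qb_sq_le (hA : A.PosDef) (v w : Fin n → ℝ) : qb A v w ^ 2 ≤ qb A v v * qb A w w := by
  obtain ⟨_, P, _, -, -, h, -⟩ := exists_diag hA hA
  simp only [h, ← sq]
  exact sum_mul_sq_le_sq_mul_sq _ _ _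

theorem abs_qb_le (hA : A.PosDef) (v w : Fin n → ℝ) :
    |qb A v w| ≤ √(qb A v v) * √(qb A w w) := by
  rw [← Real.sqrt_mul (qb_nonneg hA v)]
  exact Real.abs_le_sqrt (qb_sq_le hA v w)

/-- duality between a form and its inverse -/
theorem dual_sq_le (hA : A.PosDef) (ξ v : Fin n → ℝ) :
    (∑ i, ξ i * v i) ^ 2 ≤ qb A⁻¹ ξ ξ * qb A v v := by
  obtain ⟨_, P, Q, -, -, h, -, h', -, -, h''⟩ := exists_diag hA hA
  rw [h, h', h'']
  simp only [← sq]
  exact sum_mul_sq_le_sq_mul_sq _ _ _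

theorem abs_dual_le (hA : A.PosDef) (ξ v : Fin n → ℝ) :
    |∑ i, ξ i * v i| ≤ √(qb A⁻¹ ξ ξ) * √(qb A v v) := by
  rw [← Real.sqrt_mul (qb_nonneg hA.inv ξ)]
  exact Real.abs_le_sqrt (dual_sq_le hA ξ v)

/-- raising an index -/
theorem qb_raise (hA : A.PosDef) (ξ w : Fin n → ℝ) :
    qb A (fun i => ∑ j, A⁻¹ i j * ξ j) w = ∑ i, ξ i * w i := by
  rw [qb_comm (posDef_symm hA), qb_eq_dot]
  change w ⬝ᵥ A *ᵥ (A⁻¹ *ᵥ ξ) = ξ ⬝ᵥ w
  rw [mulVec_mulVec, mul_nonsing_inv A hA.det_pos.ne'.isUnit, one_mulVec, dotProduct_comm]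

theorem qb_raise_raise (hA : A.PosDef) (ξ η : Fin n → ℝ) :
    qb A (fun i => ∑ j, A⁻¹ i j * ξ j) (fun i => ∑ j, A⁻¹ i j * η j) = qb A⁻¹ ξ η := by
  rw [qb_raise hA, qb_eq_dot]; rfl

/-- `k A ≤ B`: determinant, inverse and adjugate -/
theorem mono_of_le (hA : A.PosDef) (hB : B.PosDef) {k : ℝ} (hk : 0 ≤ k)
    (h : ∀ v, k * qb A v v ≤ qb B v v) :
    k ^ n * A.det ≤ B.det ∧ (∀ ξ, k * qb B⁻¹ ξ ξ ≤ qb A⁻¹ ξ ξ) ∧
      ∀ ξ, k ^ (n - 1) * (A.det * qb A⁻¹ ξ ξ) ≤ B.det * qb B⁻¹ ξ ξ := by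
  obtain ⟨d, P, Q, hd, h0, h1, h2, h3, h4, h5, -⟩ := exists_diag hA hB
  have hkd : ∀ i, k ≤ d i := fun i => by
    obtain ⟨v, hv⟩ := h5 i
    have := h v
    rw [h1, h2, hv, sum_eq_single i (fun j _ hj => by simp [hj]) (by simp),
      sum_eq_single i (fun j _ hj => by simp [hj]) (by simp)] at this
    simpa using this
  have hD := hA.det_pos
  refine ⟨?_, fun ξ => ?_, fun ξ => ?_⟩
  · rw [h0, mul_comm]
    gcongr
    simpa using prod_le_prod (s := univ) (f := fun _ : Fin n => k) (fun _ _ => hk) fun i _ => hkd i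
  · rw [h3, h4, mul_sum]
    refine sum_le_sum fun i _ => ?_
    rw [← mul_assoc]
    exact mul_le_of_le_one_left (mul_self_nonneg _) (mul_inv_le_one_of_le₀ (hkd i) (hd i).le)
  · rw [h3, h4, h0, mul_left_comm, mul_assoc]
    refine mul_le_mul_of_nonneg_left ?_ hD.le
    rw [mul_sum, mul_sum]
    refine sum_le_sum fun i _ => ?_
    rw [← mul_assoc (∏ i, d i)]
    refine mul_le_mul_of_nonneg_right ?_ (mul_self_nonneg _)
    rw [← mul_prod_erase univ d (mem_univ i), mul_comm (d i), mul_inv_cancel_right₀ (hd i).ne']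
    simpa using prod_le_prod (s := univ.erase i) (f := fun _ : Fin n => k) (fun _ _ => hk)
      fun i _ => hkd i

theorem det_lower (hA : A.PosDef) {c : ℝ} (hc : 0 ≤ c) (h : ∀ v, c * ∑ i, v i * v i ≤ qb A v v) :
    c ^ n ≤ A.det := by
  simpa using (mono_of_le PosDef.one hA hc (by simpa only [qb_one] using h)).1

theorem det_upper (hA : A.PosDef) {C : ℝ} (hC : 0 < C) (h : ∀ v, qb A v v ≤ C * ∑ i, v i * v i) :
    A.det ≤ C ^ n := by
  have := (mono_of_le hA PosDef.one (k := C⁻¹) (by positivity) fun v => by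
    rw [qb_one, inv_mul_le_iff₀ hC]; exact h v).1
  rwa [det_one, inv_pow, inv_mul_le_iff₀ (by positivity), mul_one] at this

theorem inv_upper (hA : A.PosDef) {c : ℝ} (hc : 0 < c) (h : ∀ v, c * ∑ i, v i * v i ≤ qb A v v)
    (ξ : Fin n → ℝ) : qb A⁻¹ ξ ξ ≤ c⁻¹ * ∑ i, ξ i * ξ i := by
  have := (mono_of_le PosDef.one hA hc.le (by simpa only [qb_one] using h)).2.1 ξ
  rwa [inv_one, qb_one, ← le_inv_mul_iff₀ hc] at this

theorem inv_lower (hA : A.PosDef) {C : ℝ} (hC : 0 < C) (h : ∀ v, qb A v v ≤ C * ∑ i, v i * v i)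
    (ξ : Fin n → ℝ) : C⁻¹ * ∑ i, ξ i * ξ i ≤ qb A⁻¹ ξ ξ := by
  have := (mono_of_le hA PosDef.one (k := C⁻¹) (by positivity) fun v => by
    rw [qb_one, inv_mul_le_iff₀ hC]; exact h v).2.1 ξ
  rwa [inv_one, qb_one] at this

/-- entries are bounded by the upper bound of the form -/
theorem abs_entry_le (hA : A.PosDef) {C : ℝ} (h : ∀ v, qb A v v ≤ C * ∑ i, v i * v i) (i j : Fin n) :
    |A i j| ≤ C := by
  have e : ∀ i j, qb A (Pi.single i 1) (Pi.single j 1) = A i j := fun i j => by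
    simp [qb_eq_dot]
  have h1 : ∀ i, A i i ≤ C := fun i => by
    have := h (Pi.single i 1)
    rw [e, sum_eq_single i (fun j _ hj => by simp [hj]) (by simp)] at this
    simpa using this
  have h2 := qb_sq_le hA (Pi.single i 1) (Pi.single j 1)
  rw [e, e, e] at h2
  have h3 := hA.diag_pos (i := i)
  have h4 := hA.diag_pos (i := j)
  refine abs_le_of_sq_le_sq' (h2.trans ?_) (h3.le.trans (h1 i)) |> abs_le.2
  rw [sq]; exact mul_le_mul (h1 i) (h1 j) h4.le (h3.le.trans (h1 i))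

theorem inv_smul_one {c : ℝ} (hc : c ≠ 0) :
    (c • (1 : Matrix (Fin n) (Fin n) ℝ))⁻¹ = c⁻¹ • (1 : Matrix (Fin n) (Fin n) ℝ) :=
  inv_eq_right_inv (by simp [smul_smul, hc])

theorem inv_smul' (hA : A.PosDef) {c : ℝ} (hc : c ≠ 0) : (c • A)⁻¹ = c⁻¹ • A⁻¹ :=
  inv_eq_right_inv (by simp [smul_smul, hc, mul_nonsing_inv A hA.det_pos.ne'.isUnit])

end Crest.Agent.N346.Bs
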