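import Crest.Agent.N346.Defs
import Crest.Agent.N346.Mat

/-! Row 346: basic API (helper14): `pderiv` calculus (`pd_*`), metric fields, `gradDot`, `eta`,
`flux`, integration by parts, monotonicity of `BV`. -/

set_option autoImplicit false
open MeasureTheory Filter Topology
open scoped ContDiff
open Crest.GeometryTopology.CoordMetric
open Crest.MathPhysics.ExteriorData

noncomputable section

namespace Crest.Agent.N346.Bs

variable {n : ℕ} {f u v φ : E n → ℝ} {x : E n} {i j : Fin n} {g g' : MetricField n}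

/-! ### partial derivatives -/

theorem pd_congr (h : u =ᶠ[𝓝 x] v) (i : Fin n) : pderiv i u x = pderiv i v x := by
  rw [pderiv, pderiv, h.fderiv_eq]

@[simp] theorem pd_const (c : ℝ) (i : Fin n) (x : E n) : pderiv i (fun _ => c) x = 0 := by
  simp [pderiv]

theorem pd_add (hu : DifferentiableAt ℝ u x) (hv : DifferentiableAt ℝ v x) (i : Fin n) :
    pderiv i (fun y => u y + v y) x = pderiv i u x + pderiv i v x := by
  simp [pderiv, fderiv_fun_add hu hv]

theorem pd_sub (hu : DifferentiableAt ℝ u x) (hv : DifferentiableAt ℝ v x) (i : Fin n) :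
    pderiv i (fun y => u y - v y) x = pderiv i u x - pderiv i v x := by
  simp [pderiv, fderiv_fun_sub hu hv]

theorem pd_neg (u : E n → ℝ) (i : Fin n) (x : E n) :
    pderiv i (fun y => -u y) x = -pderiv i u x := by
  simp [pderiv, fderiv_fun_neg]

theorem pd_add_const (u : E n → ℝ) (c : ℝ) (i : Fin n) (x : E n) :
    pderiv i (fun y => u y + c) x = pderiv i u x := by
  simp [pderiv]

theorem pd_const_add (u : E n → ℝ) (c : ℝ) (i : Fin n) (x : E n) :
    pderiv i (fun y => c + u y) x = pderiv i u x := by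
  simp [pderiv]

theorem pd_sub_const (u : E n → ℝ) (c : ℝ) (i : Fin n) (x : E n) :
    pderiv i (fun y => u y - c) x = pderiv i u x := by
  simp [pderiv, fderiv_sub_const]

theorem pd_const_sub (u : E n → ℝ) (c : ℝ) (i : Fin n) (x : E n) :
    pderiv i (fun y => c - u y) x = -pderiv i u x := by
  simp [pderiv, fderiv_const_sub]

theorem pd_mul (hu : DifferentiableAt ℝ u x) (hv : DifferentiableAt ℝ v x) (i : Fin n) :
    pderiv i (fun y => u y * v y) x = pderiv i u x * v x + u x * pderiv i v x := by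
  simp only [pderiv, fderiv_fun_mul hu hv, ContinuousLinearMap.add_apply,
    ContinuousLinearMap.smul_apply, smul_eq_mul]
  ring

/-- no differentiability needed -/
theorem pd_const_mul (c : ℝ) (u : E n → ℝ) (i : Fin n) (x : E n) :
    pderiv i (fun y => c * u y) x = c * pderiv i u x := by
  have := fderiv_const_smul_field (𝕜 := ℝ) (f := u) c
  have h2 : (fun y => c * u y) = c • u := rfl
  simp [pderiv, h2, this]

theorem pd_mul_const (c : ℝ) (u : E n → ℝ) (i : Fin n) (x : E n) :
    pderiv i (fun y => u y * c) x = pderiv i u x * c := by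
  simp only [mul_comm _ c, pd_const_mul]

theorem pd_div_const (c : ℝ) (u : E n → ℝ) (i : Fin n) (x : E n) :
    pderiv i (fun y => u y / c) x = pderiv i u x / c := by
  simp only [div_eq_mul_inv, pd_mul_const]

theorem pd_sum {ι : Type*} {s : Finset ι} {F : ι → E n → ℝ}
    (h : ∀ k ∈ s, DifferentiableAt ℝ (F k) x) (i : Fin n) :
    pderiv i (fun y => ∑ k ∈ s, F k y) x = ∑ k ∈ s, pderiv i (F k) x := by
  simp [pderiv, fderiv_fun_sum h]

/-- chain rule -/
theorem pd_comp {θ : ℝ → ℝ} {θ' : ℝ} (hθ : HasDerivAt θ θ' (u x)) (hu : DifferentiableAt ℝ u x)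
    (i : Fin n) : pderiv i (fun y => θ (u y)) x = θ' * pderiv i u x := by
  have := (hθ.comp_hasFDerivAt x hu.hasFDerivAt).fderiv
  rw [pderiv, show (fun y => θ (u y)) = θ ∘ u from rfl, this]
  simp [pderiv]

theorem pd_coord (i j : Fin n) (x : E n) :
    pderiv i (fun y : E n => y j) x = if j = i then 1 else 0 := by
  have : (fun y : E n => y j) = (EuclideanSpace.proj j : E n →L[ℝ] ℝ) := rfl
  rw [pderiv, this, ContinuousLinearMap.fderiv]
  simp [PiLp.single_apply]

theorem pd_normSq (i : Fin n) (x : E n) : pderiv i (fun y : E n => ‖y‖ ^ 2) x = 2 * x i := by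
  simp [pderiv, fderiv_norm_sq_apply, EuclideanSpace.inner_single_right]

theorem fderiv_eq_sum (u : E n → ℝ) (x w : E n) : fderiv ℝ u x w = ∑ i, pderiv i u x * w i := by
  conv_lhs => rw [← (EuclideanSpace.basisFun (Fin n) ℝ).sum_repr w]
  simp [pderiv, mul_comm]

theorem abs_pd_le (i : Fin n) (u : E n → ℝ) (x : E n) : |pderiv i u x| ≤ ‖fderiv ℝ u x‖ := by
  simpa [pderiv] using (fderiv ℝ u x).le_opNorm (EuclideanSpace.single i 1)

theorem norm_sq_eq (w : E n) : ‖w‖ ^ 2 = ∑ i, w i * w i := by
  rw [EuclideanSpace.real_norm_sq_eq]; simp only [sq]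

theorem norm_euclidGrad (u : E n → ℝ) (x : E n) : ‖euclidGrad u x‖ = ‖fderiv ℝ u x‖ := by
  have : fderiv ℝ u x = innerSL ℝ (euclidGrad u x) := by
    ext w
    simp [fderiv_eq_sum, euclidGrad, PiLp.inner_apply, mul_comm]
  rw [this, innerSL_apply_norm]

theorem sum_pd_sq (u : E n → ℝ) (x : E n) :
    ∑ i, pderiv i u x * pderiv i u x = ‖fderiv ℝ u x‖ ^ 2 := by
  rw [← norm_euclidGrad, norm_sq_eq]; rfl

theorem contDiffAt_pd {k m : WithTop ℕ∞} (hu : ContDiffAt ℝ m u x) (hk : k + 1 ≤ m) (i : Fin n) :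
    ContDiffAt ℝ k (pderiv i u) x :=
  (hu.fderiv_right hk).clm_apply contDiffAt_const

theorem contDiff_pd' {k m : WithTop ℕ∞} (hu : ContDiff ℝ m u) (hk : k + 1 ≤ m) (i : Fin n) :
    ContDiff ℝ k (pderiv i u) :=
  contDiff_iff_contDiffAt.2 fun _ => contDiffAt_pd hu.contDiffAt hk i

@[fun_prop] theorem contDiff_pd (hu : ContDiff ℝ ∞ u) (i : Fin n) : ContDiff ℝ ∞ (pderiv i u) :=
  contDiff_pd' hu (by simp) i

theorem continuous_pd (hu : ContDiff ℝ 1 u) (i : Fin n) : Continuous (pderiv i u) :=
  (contDiff_pd' (k := 0) hu (by simp) i).continuous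

theorem smooth_diff (hu : ContDiff ℝ ∞ u) (x : E n) : DifferentiableAt ℝ u x :=
  hu.differentiable (by simp) x

theorem smooth_one (hu : ContDiff ℝ ∞ u) : ContDiff ℝ 1 u := hu.of_le (by simp)

theorem pd_comm (hu : ContDiffAt ℝ 2 u x) (i j : Fin n) :
    pderiv i (pderiv j u) x = pderiv j (pderiv i u) x := by
  have h1 : DifferentiableAt ℝ (fderiv ℝ u) x :=
    (hu.fderiv_right (m := 1) (by norm_num)).differentiableAt one_ne_zero
  have h2 : ∀ a b : Fin n, pderiv a (pderiv b u) x =
      fderiv ℝ (fderiv ℝ u) x (EuclideanSpace.single a 1) (EuclideanSpace.single b 1) := by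
    intro a b
    unfold pderiv
    rw [fderiv_clm_apply h1 (differentiableAt_const _)]
    simp
  rw [h2, h2]
  exact (hu.isSymmSndFDerivAt (by simp)).eq _ _

theorem pd_of_eventually_const {c : ℝ} (h : ∀ᶠ y in 𝓝 x, u y = c) (i : Fin n) :
    pderiv i u x = 0 := by
  rw [pd_congr (v := fun _ => c) h, pd_const]

theorem pd_of_notMem (h : x ∉ tsupport u) (i : Fin n) : pderiv i u x = 0 :=
  pd_of_eventually_const (notMem_tsupport_iff_eventuallyEq.1 h) i

theorem hasCompactSupport_pd (h : HasCompactSupport u) (i : Fin n) :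
    HasCompactSupport (pderiv i u) := .intro h fun _ hx => pd_of_notMem hx i

/-- a function that is constant outside a ball has compactly supported derivatives -/
theorem pd_of_far {c R : ℝ} (h : ∀ y, R ≤ ‖y‖ → u y = c) (hx : R < ‖x‖) (i : Fin n) :
    pderiv i u x = 0 :=
  pd_of_eventually_const (((isOpen_lt continuous_const continuous_norm).eventually_mem hx).mono
    fun y hy => h y (le_of_lt hy)) i

theorem hasCompactSupport_of_far {R : ℝ} (h : ∀ y, R < ‖y‖ → u y = 0) : HasCompactSupport u :=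
  .intro (isCompact_closedBall 0 R) fun y hy => h y (by simpa using hy)

/-- integration by parts -/
theorem ibp (hφ : ContDiff ℝ 1 φ) (hc : HasCompactSupport φ) (hu : ContDiff ℝ 1 u) (i : Fin n) :
    ∫ x, φ x * pderiv i u x = -∫ x, pderiv i φ x * u x :=
  integral_mul_fderiv_eq_neg_fderiv_mul_of_integrable
    (((continuous_pd hφ i).mul hu.continuous).integrable_of_hasCompactSupport
      (hasCompactSupport_pd hc i).mul_right)
    ((hφ.continuous.mul (continuous_pd hu i)).integrable_of_hasCompactSupport hc.mul_right)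
    ((hφ.continuous.mul hu.continuous).integrable_of_hasCompactSupport hc.mul_right)
    (fun x _ => hφ.differentiable one_ne_zero x) fun x _ => hu.differentiable one_ne_zero x

theorem integral_pd (hφ : ContDiff ℝ 1 φ) (hc : HasCompactSupport φ) (i : Fin n) :
    ∫ x, pderiv i φ x = 0 := by
  simpa using ibp hφ hc (contDiff_const (c := 1)) i

theorem ibp_divE {V : VectorField n} (hφ : ContDiff ℝ 1 φ) (hc : HasCompactSupport φ)
    (hV : ∀ i, ContDiff ℝ 1 fun x => V x i) :
    ∫ x, φ x * divE V x = -∫ x, ∑ i, pderiv i φ x * V x i := by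
  simp only [divE, Finset.mul_sum]
  rw [integral_finsetSum (f := fun i x => φ x * pderiv i (fun y => V y i) x) _ fun i _ =>
      (hφ.continuous.mul (continuous_pd (hV i) i)).integrable_of_hasCompactSupport hc.mul_right,
    integral_finsetSum (f := fun i x => pderiv i φ x * V x i) _ fun i _ => ((continuous_pd hφ i).mul
      (hV i).continuous).integrable_of_hasCompactSupport (hasCompactSupport_pd hc i).mul_right,
    ← Finset.sum_neg_distrib]
  exact Finset.sum_congr rfl fun i _ => ibp hφ hc (hV i) i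

theorem integral_divE {V : VectorField n} (hV : ∀ i, ContDiff ℝ 1 fun x => V x i)
    (hc : ∀ i, HasCompactSupport fun x => V x i) : ∫ x, divE V x = 0 := by
  unfold divE
  rw [integral_finsetSum _ fun i _ => (continuous_pd (hV i) i).integrable_of_hasCompactSupport
    (hasCompactSupport_pd (hc i) i)]
  exact Finset.sum_eq_zero fun i _ => integral_pd (hV i) (hc i) i

theorem lap_eq_divE (u : E n → ℝ) : lap u = divE fun x i => pderiv i u x := rfl

theorem divE_smul {V : VectorField n} (hφ : DifferentiableAt ℝ φ x)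
    (hV : ∀ i, DifferentiableAt ℝ (fun y => V y i) x) :
    divE (fun y i => φ y * V y i) x = ∑ i, pderiv i φ x * V x i + φ x * divE V x := by
  simp only [divE, pd_mul hφ (hV _), Finset.sum_add_distrib, Finset.mul_sum]

theorem contDiff_divE {V : VectorField n} (hV : ∀ i, ContDiff ℝ ∞ fun x => V x i) :
    ContDiff ℝ ∞ (divE V) := ContDiff.sum fun i _ => contDiff_pd (hV i) i

theorem contDiff_lap (hu : ContDiff ℝ ∞ u) : ContDiff ℝ ∞ (lap u) :=
  contDiff_divE fun i => contDiff_pd hu i

/-! ### metric fields -/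

theorem quadForm_eq (g : MetricField n) (x w : E n) : quadForm g x w = qb (g x) w w := rfl

theorem gradDot_eq (g : MetricField n) (u v : E n → ℝ) (x : E n) :
    gradDot g u v x = qb (g x)⁻¹ (fun i => pderiv i u x) fun i => pderiv i v x := rfl

theorem contDiffAt_det {k : WithTop ℕ∞} (h : ∀ i j, ContDiffAt ℝ k (fun y => g y i j) x) :
    ContDiffAt ℝ k (fun y => (g y).det) x := by
  simp only [Matrix.det_apply']
  exact ContDiffAt.sum fun σ _ => contDiffAt_const.mul (contDiffAt_prod fun i _ => h _ _)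

theorem contDiffAt_inv {k : WithTop ℕ∞} (h : ∀ i j, ContDiffAt ℝ k (fun y => g y i j) x)
    (hd : (g x).det ≠ 0) (i j : Fin n) : ContDiffAt ℝ k (fun y => inverseField g y i j) x := by
  simp only [inverseField, Matrix.inv_def, Matrix.smul_apply, Ring.inverse_eq_inv', smul_eq_mul,
    Matrix.adjugate_apply]
  refine ((contDiffAt_det h).inv hd).mul
    (contDiffAt_det (g := fun y => (g y).updateRow j (Pi.single i 1)) fun a b => ?_)
  by_cases hab : a = j
  · simp only [hab, Matrix.updateRow_self]; exact contDiffAt_const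
  · simp only [Matrix.updateRow_ne hab]; exact h a b

section Riem
variable (hg : IsRiemannianOn g Set.univ)
include hg

theorem riem_posDef (x : E n) : (g x).PosDef := hg.posDef x trivial

theorem riem_symm (x : E n) (i j : Fin n) : g x i j = g x j i := posDef_symm (riem_posDef hg x) i j

theorem riem_inv_symm (x : E n) (i j : Fin n) : inverseField g x i j = inverseField g x j i :=
  posDef_symm (riem_posDef hg x).inv i j

theorem contDiff_g (i j : Fin n) : ContDiff ℝ ∞ fun x => g x i j :=
  contDiffOn_univ.1 (hg.contDiffOn i j)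

theorem det_pos (x : E n) : 0 < (g x).det := (riem_posDef hg x).det_pos

theorem contDiff_det : ContDiff ℝ ∞ fun x => (g x).det :=
  contDiff_iff_contDiffAt.2 fun _ => contDiffAt_det fun i j => (contDiff_g hg i j).contDiffAt

theorem volDensity_pos (x : E n) : 0 < volDensity g x := Real.sqrt_pos.2 (det_pos hg x)

theorem volDensity_sq (x : E n) : volDensity g x ^ 2 = (g x).det := Real.sq_sqrt (det_pos hg x).le

theorem contDiff_volDensity : ContDiff ℝ ∞ (volDensity g) :=
  (contDiff_det hg).sqrt fun x => (det_pos hg x).ne'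

theorem contDiff_inv (i j : Fin n) : ContDiff ℝ ∞ fun x => inverseField g x i j :=
  contDiff_iff_contDiffAt.2 fun x =>
    contDiffAt_inv (fun i j => (contDiff_g hg i j).contDiffAt) (det_pos hg x).ne' i j

theorem gradDot_comm (u v : E n → ℝ) (x : E n) : gradDot g u v x = gradDot g v u x :=
  qb_comm (riem_inv_symm hg x) _ _

theorem gradSq_nonneg (u : E n → ℝ) (x : E n) : 0 ≤ gradSq g u x :=
  qb_nonneg (riem_posDef hg x).inv _

theorem gradSq_pos (h : fderiv ℝ u x ≠ 0) : 0 < gradSq g u x :=
  qb_pos (riem_posDef hg x).inv fun h0 => h (by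
    ext w; simp [fderiv_eq_sum, show ∀ i, pderiv i u x = 0 from congrFun h0])

theorem abs_gradDot_le (u v : E n → ℝ) (x : E n) :
    |gradDot g u v x| ≤ √(gradSq g u x) * √(gradSq g v x) := abs_qb_le (riem_posDef hg x).inv _ _

theorem gradDot_sq_le (u v : E n → ℝ) (x : E n) :
    gradDot g u v x ^ 2 ≤ gradSq g u x * gradSq g v x := qb_sq_le (riem_posDef hg x).inv _ _

/-- `|du(w)| ≤ |du|_g |w|_g` -/
theorem abs_fderiv_le (u : E n → ℝ) (x w : E n) :
    |fderiv ℝ u x w| ≤ √(gradSq g u x) * √(quadForm g x w) := by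
  rw [fderiv_eq_sum]; exact abs_dual_le (riem_posDef hg x) _ _

theorem contDiff_gradDot (hu : ContDiff ℝ ∞ u) (hv : ContDiff ℝ ∞ v) :
    ContDiff ℝ ∞ (gradDot g u v) :=
  ContDiff.sum fun i _ => ContDiff.sum fun j _ =>
    ((contDiff_inv hg i j).mul (contDiff_pd hu i)).mul (contDiff_pd hv j)

theorem contDiff_gradSq (hu : ContDiff ℝ ∞ u) : ContDiff ℝ ∞ (gradSq g u) :=
  contDiff_gradDot hg hu hu

theorem continuous_gradDot (hu : ContDiff ℝ 1 u) (hv : ContDiff ℝ 1 v) :
    Continuous (gradDot g u v) :=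
  continuous_finsetSum _ fun i _ => continuous_finsetSum _ fun j _ =>
    ((contDiff_inv hg i j).continuous.mul (continuous_pd hu i)).mul (continuous_pd hv j)

theorem gradSq_le {c : ℝ} (hc : 0 < c) (h : ∀ w, c * ‖w‖ ^ 2 ≤ quadForm g x w) (u : E n → ℝ) :
    gradSq g u x ≤ c⁻¹ * ‖fderiv ℝ u x‖ ^ 2 := by
  rw [← sum_pd_sq]
  exact inv_upper (riem_posDef hg x) hc
    (fun w => by simpa only [norm_sq_eq, quadForm_eq] using h (WithLp.toLp 2 w)) _

theorem le_gradSq {C : ℝ} (hC : 0 < C) (h : ∀ w, quadForm g x w ≤ C * ‖w‖ ^ 2) (u : E n → ℝ) :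
    C⁻¹ * ‖fderiv ℝ u x‖ ^ 2 ≤ gradSq g u x := by
  rw [← sum_pd_sq]
  exact inv_lower (riem_posDef hg x) hC
    (fun w => by simpa only [norm_sq_eq, quadForm_eq] using h (WithLp.toLp 2 w)) _

theorem le_det {c : ℝ} (hc : 0 ≤ c) (h : ∀ w, c * ‖w‖ ^ 2 ≤ quadForm g x w) : c ^ n ≤ (g x).det :=
  det_lower (riem_posDef hg x) hc fun w => by simpa only [norm_sq_eq, quadForm_eq] using h (WithLp.toLp 2 w)

theorem det_le {C : ℝ} (hC : 0 < C) (h : ∀ w, quadForm g x w ≤ C * ‖w‖ ^ 2) : (g x).det ≤ C ^ n :=
  det_upper (riem_posDef hg x) hC fun w => by simpa only [norm_sq_eq, quadForm_eq] using h (WithLp.toLp 2 w)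

end Riem

theorem gradDot_of_pd {a b : ℝ} {u' v' : E n → ℝ} (hu : ∀ i, pderiv i u' x = a * pderiv i u x)
    (hv : ∀ i, pderiv i v' x = b * pderiv i v x) :
    gradDot g u' v' x = a * b * gradDot g u v x := by
  simp only [gradDot, hu, hv, Finset.mul_sum]
  exact Finset.sum_congr rfl fun i _ => Finset.sum_congr rfl fun j _ => by ring

theorem gradDot_comp_left {θ : ℝ → ℝ} {θ' : ℝ} (hθ : HasDerivAt θ θ' (u x))
    (hu : DifferentiableAt ℝ u x) : gradDot g (fun y => θ (u y)) v x = θ' * gradDot g u v x := by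
  simpa using gradDot_of_pd (g := g) (b := 1) (v := v) (pd_comp hθ hu) fun _ => (one_mul _).symm

theorem gradSq_comp {θ : ℝ → ℝ} {θ' : ℝ} (hθ : HasDerivAt θ θ' (u x))
    (hu : DifferentiableAt ℝ u x) : gradSq g (fun y => θ (u y)) x = θ' ^ 2 * gradSq g u x := by
  rw [sq]; exact gradDot_of_pd (pd_comp hθ hu) (pd_comp hθ hu)

theorem gradDot_add_left (hu : DifferentiableAt ℝ u x) (hv : DifferentiableAt ℝ v x) :
    gradDot g (fun y => u y + v y) f x = gradDot g u f x + gradDot g v f x := by
  simp only [gradDot, pd_add hu hv, mul_add, add_mul, Finset.sum_add_distrib]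

theorem gradDot_mul_left (hu : DifferentiableAt ℝ u x) (hv : DifferentiableAt ℝ v x) :
    gradDot g (fun y => u y * v y) f x = v x * gradDot g u f x + u x * gradDot g v f x := by
  simp only [gradDot, pd_mul hu hv, Finset.mul_sum, ← Finset.sum_add_distrib]
  exact Finset.sum_congr rfl fun i _ => Finset.sum_congr rfl fun j _ => by ring

theorem gradDot_of_zero (h : ∀ i, pderiv i u x = 0) : gradDot g u v x = 0 := by simp [gradDot, h]

/-- the `g`-gradient -/
def gradV (g : MetricField n) (u : E n → ℝ) : VectorField n :=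
  fun x i => ∑ j, inverseField g x i j * pderiv j u x

theorem sum_pd_grad (g : MetricField n) (u v : E n → ℝ) (x : E n) :
    ∑ i, pderiv i u x * gradV g v x i = gradDot g u v x := by
  simp only [gradV, gradDot, Finset.mul_sum]
  exact Finset.sum_congr rfl fun i _ => Finset.sum_congr rfl fun j _ => by ring

theorem laplaceBeltrami_eq (g : MetricField n) (u : E n → ℝ) (x : E n) :
    laplaceBeltrami g u x = gDiv g (gradV g u) x := by
  rw [laplaceBeltrami, gDiv, one_div, ← div_eq_inv_mul]; rfl

theorem gDiv_eq (g : MetricField n) (V : VectorField n) (x : E n) :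
    gDiv g V x = divE (fun y i => volDensity g y * V y i) x / volDensity g x := rfl

section Riem
variable (hg : IsRiemannianOn g Set.univ)
include hg

theorem vecNormSq_grad (u : E n → ℝ) (x : E n) : vecNormSq g (gradV g u) x = gradSq g u x :=
  qb_raise_raise (riem_posDef hg x) _ _

theorem contDiff_grad (hu : ContDiff ℝ ∞ u) (i : Fin n) : ContDiff ℝ ∞ fun x => gradV g u x i :=
  ContDiff.sum fun j _ => (contDiff_inv hg i j).mul (contDiff_pd hu j)

theorem gDiv_mul_vol (V : VectorField n) (x : E n) :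
    gDiv g V x * volDensity g x = divE (fun y i => volDensity g y * V y i) x :=
  div_mul_cancel₀ _ (volDensity_pos hg x).ne'

theorem contDiff_gDiv {V : VectorField n} (hV : ∀ i, ContDiff ℝ ∞ fun x => V x i) :
    ContDiff ℝ ∞ (gDiv g V) :=
  (contDiff_divE fun i => (contDiff_volDensity hg).mul (hV i)).div (contDiff_volDensity hg)
    fun x => (volDensity_pos hg x).ne'

theorem contDiff_laplaceBeltrami (hu : ContDiff ℝ ∞ u) : ContDiff ℝ ∞ (laplaceBeltrami g u) := by
  rw [funext (laplaceBeltrami_eq g u)]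
  exact contDiff_gDiv hg (contDiff_grad hg hu)

theorem gDiv_smul {V : VectorField n} (hφ : DifferentiableAt ℝ φ x)
    (hV : ∀ i, DifferentiableAt ℝ (fun y => V y i) x) :
    gDiv g (fun y i => φ y * V y i) x = ∑ i, pderiv i φ x * V x i + φ x * gDiv g V x := by
  have h0 := (volDensity_pos hg x).ne'
  simp only [gDiv_eq, mul_left_comm (volDensity g _)]
  rw [divE_smul (V := fun y i => volDensity g y * V y i) hφ
    fun i => (smooth_diff (contDiff_volDensity hg) x).mul (hV i), add_div, mul_div_assoc,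
    Finset.sum_div]
  congr 1
  exact Finset.sum_congr rfl fun i _ => by field_simp

theorem gDiv_add {V W : VectorField n} (hV : ∀ i, DifferentiableAt ℝ (fun y => V y i) x)
    (hW : ∀ i, DifferentiableAt ℝ (fun y => W y i) x) :
    gDiv g (fun y i => V y i + W y i) x = gDiv g V x + gDiv g W x := by
  have h := smooth_diff (contDiff_volDensity hg) x
  simp only [gDiv, mul_add, pd_add (h.fun_mul (hV _)) (h.fun_mul (hW _)), Finset.sum_add_distrib,
    add_div]

/-- integration by parts for `gDiv` -/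
theorem ibp_gDiv {V : VectorField n} (hφ : ContDiff ℝ 1 φ) (hc : HasCompactSupport φ)
    (hV : ∀ i, ContDiff ℝ 1 fun x => V x i) :
    ∫ x, φ x * gDiv g V x * volDensity g x = -∫ x, (∑ i, pderiv i φ x * V x i) * volDensity g x := by
  simp only [mul_assoc, gDiv_mul_vol hg, Finset.sum_mul, mul_comm (V _ _)]
  exact ibp_divE hφ hc fun i => (smooth_one (contDiff_volDensity hg)).mul (hV i)

theorem integral_gDiv {V : VectorField n} (hV : ∀ i, ContDiff ℝ 1 fun x => V x i)
    (hc : ∀ i, HasCompactSupport fun x => V x i) : ∫ x, gDiv g V x * volDensity g x = 0 := by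
  simp only [gDiv_mul_vol hg]
  exact integral_divE (fun i => (smooth_one (contDiff_volDensity hg)).mul (hV i))
    fun i => (hc i).mul_left

/-- Green's identity -/
theorem ibp_laplaceBeltrami (hφ : ContDiff ℝ 1 φ) (hc : HasCompactSupport φ)
    (hu : ContDiff ℝ ∞ u) :
    ∫ x, φ x * laplaceBeltrami g u x * volDensity g x = -∫ x, gradDot g φ u x * volDensity g x := by
  simp only [laplaceBeltrami_eq, ← sum_pd_grad]
  exact ibp_gDiv hg hφ hc fun i => smooth_one (contDiff_grad hg hu i)

end Riem

end Crest.Agent.N346.Bs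

end
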