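import Mathlib
import Crest.Prelude.Def_CoordMetric
import Crest.Prelude.Def_ExteriorData

/-!
Row 346 (spacetime Penrose inequality): FROZEN INTERFACES between the parts.

`Data --P0--> Good --P1--> Neck --P2--> False`.
Everything lives on all of `ℝⁿ`; no boundary, only smooth objects.  See team notes 131, 132 and later.
-/

set_option autoImplicit false
open MeasureTheory Filter Topology
open scoped ContDiff ENNReal
open Crest.GeometryTopology.CoordMetric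
open Crest.MathPhysics.ExteriorData

noncomputable section

namespace Crest.Agent.N346

/-- Euclidean space. -/
abbrev E (n : ℕ) : Type := EuclideanSpace ℝ (Fin n)

variable {n : ℕ}

/-- `g^{ij} ∂ᵢu ∂ⱼv`. -/
def gradDot (g : MetricField n) (u v : E n → ℝ) (x : E n) : ℝ :=
  ∑ i, ∑ j, inverseField g x i j * pderiv i u x * pderiv j v x

/-- `|du|²_g`. -/
def gradSq (g : MetricField n) (u : E n → ℝ) (x : E n) : ℝ := gradDot g u u x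

/-- Flat Laplacian. -/
def lap (u : E n → ℝ) (x : E n) : ℝ := ∑ i, pderiv i (pderiv i u) x

/-- Flat divergence of a vector density. -/
def divE (V : VectorField n) (x : E n) : ℝ := ∑ i, pderiv i (fun y => V y i) x

/-- The cut-off `η_R`: smooth, radial, `1` on `‖x‖ ≤ R`, `0` on `2R ≤ ‖x‖`. -/
def eta (R : ℝ) (x : E n) : ℝ := Real.smoothTransition ((4 - ‖x‖ ^ 2 / R ^ 2) / 3)

/-- Averaged flux `∫ ∇U · ∇η_R dx` (equal to `(n-2) ω a` for `U = 1 + a r^{2-n}`). -/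
def flux (U : E n → ℝ) (R : ℝ) : ℝ := ∫ x, ∑ i, pderiv i U x * pderiv i (eta R) x

/-- `limsup_{R → ∞} flux U R ≤ a`. -/
def FluxLE (U : E n → ℝ) (a : ℝ) : Prop := ∀ ε > 0, ∃ R0 : ℝ, ∀ R ≥ R0, flux U R ≤ a + ε

/-- Area lower bound in total-variation form. -/
def BV (g : MetricField n) (Z : Set (E n)) (A : ℝ) : Prop :=
  ∀ F : E n → ℝ, ContDiff ℝ ∞ F → (∀ x ∈ Z, F x = 0) → (∃ R : ℝ, ∀ x, R ≤ ‖x‖ → F x = 1) →
    A ≤ ∫ x, Real.sqrt (gradSq g F x) * volDensity g x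

/-- `|E|²_g` for the vector field `E = EE / √det g` given by the vector DENSITY `EE`. -/
def eSq (g : MetricField n) (EE : VectorField n) (x : E n) : ℝ :=
  vecNormSq g EE x / (g x).det

/-- `g(w, E)` for `E = EE / √det g`. -/
def eDot (g : MetricField n) (EE : VectorField n) (x w : E n) : ℝ :=
  (∑ i, ∑ j, g x i j * w i * EE x j) / volDensity g x

/-- Dominant energy condition with electric field and margin `m0` at the point `x`. -/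
def DECE (g K : MetricField n) (EE : VectorField n) (m0 : ℝ) (x : E n) : Prop :=
  ∀ w : E n, quadForm g x w ≤ 1 →
    (1 - quadForm g x w) * eSq g EE x + eDot g EE x w ^ 2 + m0
      ≤ energyDensity g K x - ∑ i, momentumDensity g K x i * w i

/-- Unit normal `∇s / |∇s|_g` of the level sets of `s`. -/
def levelNormal (g : MetricField n) (s : E n → ℝ) : VectorField n :=
  fun x i => (∑ j, inverseField g x i j * pderiv j s x) / Real.sqrt (gradSq g s x)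

/-- Past expansion `H - tr_S K` of the level set of `s` through `x`. -/
def levelExp (g K : MetricField n) (s : E n → ℝ) (x : E n) : ℝ :=
  gDiv g (levelNormal g s) x
    - ∑ i, ∑ j, (inverseField g x i j - levelNormal g s x i * levelNormal g s x j) * K x i j

/-- The Penrose bound `½ (A/ω)^((n-2)/(n-1))`. -/
def PB (n : ℕ) (A : ℝ) : ℝ := (1 / 2) * (A / unitSphereArea n) ^ (((n : ℝ) - 2) / ((n : ℝ) - 1))

/-- Normalised input data (signs chosen past trapped, magnetic field forgotten). -/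
structure Data (n : ℕ) (q : ℝ) (g K : MetricField n) (EE : VectorField n) (En : ℝ) (P : E n)
    (Q : ℝ) : Prop where
  q_gt : ((n : ℝ) - 2) / 2 < q
  riem : IsRiemannianOn g Set.univ
  K_smooth : ∀ i j, ContDiff ℝ ∞ fun x => K x i j
  K_symm : ∀ x i j, K x i j = K x j i
  g_decay : ∀ i j, DecaysAt 2 q fun x => g x i j - (1 : Matrix (Fin n) (Fin n) ℝ) i j
  K_decay : ∀ i j, DecaysAt 1 (1 + q) fun x => K x i j
  EE_smooth : ∀ i, ContDiff ℝ ∞ fun x => EE x i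
  EE_decay : ∃ C : ℝ, ∀ x i, |EE x i| ≤ C * (1 + ‖x‖) ^ (1 - (n : ℝ))
  EE_div : ∀ x : E n, 1 ≤ ‖x‖ → divE EE x = 0
  charge : ∫ x, divE EE x = unitSphereArea n * Q
  dec : ∀ x : E n, 1 ≤ ‖x‖ → DECE g K EE 0 x
  trap : ∀ x : E n, ‖x‖ = 1 → pastExpansion g K x ≤ 0
  energy : Tendsto (energyFlux g) atTop (𝓝 En)
  momentum : ∀ i, Tendsto (fun R => momentumFlux g K R i) atTop (𝓝 (P i))

/-- Output of Part 0: strict data, conformally flat and time symmetric near infinity, no momentum.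
The excised region is `{s ≤ 1}` (think `s x = ‖B x‖²`). -/
structure Good (n : ℕ) (m A Q : ℝ) (g K : MetricField n) (EE : VectorField n) (ψ s : E n → ℝ)
    (R0 C c0 e0 θ0 r1 : ℝ) : Prop where
  R0_ge : 1 ≤ R0
  C_ge : 1 ≤ C
  c0_pos : 0 < c0
  e0_pos : 0 < e0
  e0_lt : e0 < (n : ℝ) - 2
  θ0_pos : 0 < θ0
  r1_gt : 1 < r1
  r1_lt : r1 < 2
  riem : IsRiemannianOn g Set.univ
  g_lo : ∀ x v, C⁻¹ * ‖v‖ ^ 2 ≤ quadForm g x v
  g_hi : ∀ x v, quadForm g x v ≤ C * ‖v‖ ^ 2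
  g_bdd : ∀ k : ℕ, ∃ B : ℝ, ∀ i j x, ‖iteratedFDeriv ℝ k (fun y => g y i j) x‖ ≤ B
  K_smooth : ∀ i j, ContDiff ℝ ∞ fun x => K x i j
  K_symm : ∀ x i j, K x i j = K x j i
  K_far : ∀ x, R0 ≤ ‖x‖ → K x = 0
  ψ_smooth : ContDiff ℝ ∞ ψ
  g_far : ∀ x, R0 ≤ ‖x‖ → g x = Real.exp (2 * ψ x) • (1 : Matrix (Fin n) (Fin n) ℝ)
  ψ_decay : ∀ k : ℕ, k ≤ 2 → ∀ x,
    ‖iteratedFDeriv ℝ k ψ x‖ ≤ C * (1 + ‖x‖) ^ (2 - (n : ℝ) - (k : ℝ))
  ψ_lap : ∀ x, |lap ψ x| ≤ C * (1 + ‖x‖) ^ (-(n : ℝ) - e0)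
  mass : -∫ x, lap ψ x ≤ unitSphereArea n * m
  s_smooth : ContDiff ℝ ∞ s
  s_nonneg : ∀ x, 0 ≤ s x
  s_far : ∀ x, R0 ≤ ‖x‖ → 2 ≤ s x
  s_reg : ∀ x, 0 < s x → fderiv ℝ s x ≠ 0
  EE_smooth : ∀ i, ContDiff ℝ ∞ fun x => EE x i
  EE_decay : ∀ x i, |EE x i| ≤ C * (1 + ‖x‖) ^ (1 - (n : ℝ))
  EE_div : ∀ x, 1 ≤ s x → divE EE x = 0
  charge : ∫ x, divE EE x = unitSphereArea n * Q
  dec : ∀ x, 1 ≤ s x → DECE g K EE (c0 * (1 + ‖x‖) ^ (-(n : ℝ) - e0)) x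
  trap : ∀ x, 1 ≤ s x → s x ≤ r1 → levelExp g K s x ≤ -θ0
  area : BV g {x | s x ≤ 1} A

/-- Output of Part 1: a Riemannian metric on `ℝⁿ` with `R ≥ 0` outside a compact region `{ℓ ≤ d}`
that is shielded by a neck of length `ℓ`.  `Λ` is a polynomial bound (metric, support of `d`, seed `Λ⁻¹`). -/
structure Neck (n : ℕ) (η Λ ℓ m A Q : ℝ) (g : MetricField n) (d U : E n → ℝ)
    (EE : VectorField n) : Prop where
  riem : IsRiemannianOn g Set.univ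
  g_lo : ∀ x v, Λ⁻¹ * ‖v‖ ^ 2 ≤ quadForm g x v
  g_hi : ∀ x v, quadForm g x v ≤ Λ * ‖v‖ ^ 2
  d_smooth : ContDiff ℝ ∞ d
  d_nonneg : ∀ x, 0 ≤ d x
  d_lip : ∀ x, gradSq g d x ≤ 1
  d_far : ∀ x, Λ ≤ ‖x‖ → d x = 0
  R_out : ∀ x, d x < ℓ → 2 * (1 - η) * eSq g EE x ≤ scalarCurv g x
  R_neck : ∀ x, 0 < d x → d x < ℓ →
    2 * (1 - η) * eSq g EE x + (gradSq g d x + Λ⁻¹) ≤ scalarCurv g x
  U_smooth : ContDiff ℝ ∞ U
  U_pos : ∀ x, 0 < U x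
  g_inf : ∃ R : ℝ, ∀ x, R ≤ ‖x‖ →
    g x = U x ^ (4 / ((n : ℝ) - 2)) • (1 : Matrix (Fin n) (Fin n) ℝ)
  U_lim : Tendsto U (cocompact (E n)) (𝓝 1)
  U_grad : Integrable fun x => ∑ i, pderiv i U x ^ 2
  U_hardy : Integrable fun x => (U x - 1) ^ 2 / (1 + ‖x‖ ^ 2)
  mass : FluxLE U (((n : ℝ) - 2) * unitSphereArea n * m / 2)
  area : BV g {x | ℓ ≤ d x} A
  EE_smooth : ∀ i, ContDiff ℝ ∞ fun x => EE x i
  EE_decay : ∃ C : ℝ, ∀ x i, |EE x i| ≤ C * (1 + ‖x‖) ^ (1 - (n : ℝ))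
  EE_div : ∀ x, d x < ℓ → divE EE x = 0
  charge : ∫ x, divE EE x = unitSphereArea n * Q

/-! ### The parts -/

/-- Part 0.0(b): the minimum enclosing area is positive. -/
def AposStmt : Prop := ∀ (n : ℕ), 3 ≤ n → ∀ (q : ℝ), 0 < q → ∀ g : MetricField n,
  IsRiemannianOn g Set.univ →
  (∀ i j, DecaysAt 0 q fun x => g x i j - (1 : Matrix (Fin n) (Fin n) ℝ) i j) →
  0 < minEnclosingArea g

/-- Part 0.0(c): Sard + coarea. -/
def BV0Stmt : Prop := ∀ (n : ℕ), 3 ≤ n → ∀ g : MetricField n, IsRiemannianOn g Set.univ →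
  ∀ A : ℝ, ENNReal.ofReal A ≤ minEnclosingArea g → BV g (Metric.closedBall 0 1) A

/-- Part 0.1, uncharged normalisation (`K ↦ -K`, `P ↦ -P`). -/
def NormUStmt : Prop := ∀ (n : ℕ), 3 ≤ n → ∀ (q : ℝ), ((n : ℝ) - 2) / 2 < q →
  ∀ g K : MetricField n, IsRiemannianOn g Set.univ →
  (∀ i j, ContDiff ℝ ∞ fun x => K x i j) → (∀ x i j, K x i j = K x j i) →
  (∀ i j, DecaysAt 2 q fun x => g x i j - (1 : Matrix (Fin n) (Fin n) ℝ) i j) →
  (∀ i j, DecaysAt 1 (1 + q) fun x => K x i j) →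
  (∀ x ∈ exteriorRegion n, momentumNorm g K x ≤ energyDensity g K x) →
  (∀ x : E n, ‖x‖ = 1 → futureExpansion g K x ≤ 0) →
  ∀ (En : ℝ) (P : E n), Tendsto (energyFlux g) atTop (𝓝 En) →
  (∀ i, Tendsto (fun R => momentumFlux g K R i) atTop (𝓝 (P i))) →
  Data n q g (fun x => -K x) (fun _ _ => 0) En (-P) 0

/-- Part 0.1, charged normalisation (sign of `K`, duality rotation, `EE = √det g · E'`). -/
def NormCStmt : Prop := ∀ (q : ℝ), 1 / 2 < q →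
  ∀ g K : MetricField 3, IsRiemannianOn g Set.univ →
  (∀ i j, ContDiff ℝ ∞ fun x => K x i j) → (∀ x i j, K x i j = K x j i) →
  ∀ Ef B : VectorField 3, (∀ i, ContDiff ℝ ∞ fun x => Ef x i) → (∀ i, ContDiff ℝ ∞ fun x => B x i) →
  (∀ i j, DecaysAt 2 q fun x => g x i j - (1 : Matrix (Fin 3) (Fin 3) ℝ) i j) →
  (∀ i j, DecaysAt 1 (1 + q) fun x => K x i j) →
  (∀ i, DecaysAt 1 2 fun x => Ef x i) → (∀ i, DecaysAt 1 2 fun x => B x i) →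
  (∀ x ∈ exteriorRegion 3, gDiv g Ef x = 0) → (∀ x ∈ exteriorRegion 3, gDiv g B x = 0) →
  (∀ x ∈ exteriorRegion 3, chargedMomentumNorm g K Ef B x ≤ chargedEnergyDensity g K Ef B x) →
  ((∀ x : E 3, ‖x‖ = 1 → futureExpansion g K x ≤ 0) ∨
    (∀ x : E 3, ‖x‖ = 1 → pastExpansion g K x ≤ 0)) →
  ∀ (En : ℝ) (P : E 3) (QE QB : ℝ), Tendsto (energyFlux g) atTop (𝓝 En) →
  (∀ i, Tendsto (fun R => momentumFlux g K R i) atTop (𝓝 (P i))) →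
  Tendsto (chargeFlux g Ef) atTop (𝓝 QE) → Tendsto (chargeFlux g B) atTop (𝓝 QB) →
  ∃ (K' : MetricField 3) (EE : VectorField 3) (P' : E 3), ‖P'‖ = ‖P‖ ∧
    Data 3 q g K' EE En P' (Real.sqrt (QE ^ 2 + QB ^ 2))

/-- Part 0.2–0.5: strictness, harmonic asymptotics, bending, linear change of coordinates. -/
def P0Stmt : Prop := ∀ (n : ℕ), 3 ≤ n → ∀ (q : ℝ) (g K : MetricField n) (EE : VectorField n)
  (En : ℝ) (P : E n) (Q A : ℝ), Data n q g K EE En P Q → 0 ≤ A →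
  BV g (Metric.closedBall 0 1) A → ∀ E' : ℝ, En < E' → ‖P‖ < E' → ∀ ε > 0,
  ∃ (g' K' : MetricField n) (EE' : VectorField n) (ψ s : E n → ℝ) (R0 C c0 e0 θ0 r1 : ℝ),
    Good n (Real.sqrt (E' ^ 2 - ‖P‖ ^ 2) + ε) ((1 - ε) * A) Q g' K' EE' ψ s R0 C c0 e0 θ0 r1

/-- Part 1: the coupled Jang / conformal system produces necks of unbounded length. -/
def P1Stmt : Prop := ∀ (n : ℕ), 3 ≤ n → ∀ (m A Q : ℝ) (g K : MetricField n) (EE : VectorField n)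
  (ψ s : E n → ℝ) (R0 C c0 e0 θ0 r1 : ℝ), Good n m A Q g K EE ψ s R0 C c0 e0 θ0 r1 → 0 ≤ A →
  ∀ η > 0, ∃ N : ℕ, ∀ ℓ0 : ℝ, ∃ ℓ ≥ ℓ0, ∃ (g' : MetricField n) (d U : E n → ℝ),
    Neck n η (ℓ ^ N) ℓ (m + η) ((1 - η) * A) Q g' d U EE

/-- Part 2, uncharged: the shielded Riemannian Penrose inequality. -/
def P2UStmt : Prop := ∀ (n : ℕ), 3 ≤ n → ∀ m A : ℝ, 0 < m → 0 < A → m < PB n A → ∃ η > 0, ∀ N : ℕ,
  ∃ ℓ0 : ℝ, ∀ ℓ ≥ ℓ0, ∀ (g : MetricField n) (d U : E n → ℝ),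
    ¬ Neck n η (ℓ ^ N) ℓ m A 0 g d U (fun _ _ => 0)

/-- Part 2, charged (`n = 3`). -/
def P2CStmt : Prop := ∀ m A Q : ℝ, 0 < m → 0 < A → 0 ≤ Q →
  (m < Q ∨ m + Real.sqrt (m ^ 2 - Q ^ 2) < Real.sqrt (A / (4 * Real.pi))) → ∃ η > 0, ∀ N : ℕ,
  ∃ ℓ0 : ℝ, ∀ ℓ ≥ ℓ0, ∀ (g : MetricField 3) (d U : E 3 → ℝ) (EE : VectorField 3),
    ¬ Neck 3 η (ℓ ^ N) ℓ m A Q g d U EE

end Crest.Agent.N346

end
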