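import Crest.Agent.N346.Defs

/-! Row 346: assembly of the three statements from the parts. -/

set_option autoImplicit false
open MeasureTheory Filter Topology
open scoped ContDiff ENNReal
open Crest.GeometryTopology.CoordMetric
open Crest.MathPhysics.ExteriorData

noncomputable section

namespace Crest.Agent.N346

variable {n : ℕ}

theorem unitSphereArea_pos (hn : 1 ≤ n) : 0 < unitSphereArea n := by
  unfold unitSphereArea
  have h : (0 : ℝ) < (n : ℝ) / 2 := by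
    have : (1 : ℝ) ≤ n := by exact_mod_cast hn
    linarith
  have := Real.Gamma_pos_of_pos h
  have := Real.pi_pos
  positivity

theorem eSq_nonneg {g : MetricField n} (hg : IsRiemannianOn g Set.univ) (EE : VectorField n)
    (x : E n) : 0 ≤ eSq g EE x := by
  have hp := hg.posDef x (Set.mem_univ x)
  unfold eSq
  refine div_nonneg ?_ hp.det_pos.le
  have h := hp.posSemidef.dotProduct_mulVec_nonneg (EE x)
  simp only [star_trivial] at h
  have : vecNormSq g EE x = EE x ⬝ᵥ (g x).mulVec (EE x) := by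
    simp only [vecNormSq, dotProduct, Matrix.mulVec, Finset.mul_sum]
    refine Finset.sum_congr rfl fun i _ => Finset.sum_congr rfl fun j _ => by ring
  rw [this]; exact h

theorem Neck.mono {η η' Λ ℓ m m' A A' Q : ℝ} {g : MetricField n} {d U : E n → ℝ}
    {EE : VectorField n} (hn : 3 ≤ n) (h : Neck n η Λ ℓ m A Q g d U EE) (hη : η ≤ η') (hm : m ≤ m')
    (hA : A' ≤ A) : Neck n η' Λ ℓ m' A' Q g d U EE :=
  { h with
    R_out := fun x hx => by
      have := h.R_out x hx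
      have h0 := eSq_nonneg h.riem EE x
      nlinarith
    R_neck := fun x h1 hx => by
      have := h.R_neck x h1 hx
      have h0 := eSq_nonneg h.riem EE x
      nlinarith
    mass := fun ε hε => by
      obtain ⟨R0, hR⟩ := h.mass ε hε
      refine ⟨R0, fun R hRR => (hR R hRR).trans ?_⟩
      have h1 : (0 : ℝ) ≤ (n : ℝ) - 2 := by
        have : (3 : ℝ) ≤ n := by exact_mod_cast hn
        linarith
      have h2 := (unitSphereArea_pos (n := n) (by omega)).le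
      have : ((n : ℝ) - 2) * unitSphereArea n * m ≤ ((n : ℝ) - 2) * unitSphereArea n * m' :=
        mul_le_mul_of_nonneg_left hm (mul_nonneg h1 h2)
      linarith
    area := fun F h1 h2 h3 => hA.trans (h.area F h1 h2 h3) }

/-- From Parts 0 and 1: necks with nearly the right mass and area. -/
theorem necks (h0 : P0Stmt) (h1 : P1Stmt) (hn : 3 ≤ n) {q : ℝ} {g K : MetricField n}
    {EE : VectorField n} {En : ℝ} {P : E n} {Q A : ℝ} (hD : Data n q g K EE En P Q) (hA : 0 ≤ A)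
    (hBV : BV g (Metric.closedBall 0 1) A) {E' : ℝ} (hE : En < E') (hP : ‖P‖ < E') {ε : ℝ}
    (hε : 0 < ε) (hε1 : ε ≤ 1) {η : ℝ} (hη : 0 < η) :
    ∃ (EE' : VectorField n) (N : ℕ), (EE = (fun _ _ => 0) → True) ∧ ∀ ℓ0 : ℝ, ∃ ℓ ≥ ℓ0,
      ∃ (g' : MetricField n) (d U : E n → ℝ),
      Neck n η (ℓ ^ N) ℓ (Real.sqrt (E' ^ 2 - ‖P‖ ^ 2) + 2 * ε) ((1 - ε) ^ 2 * A) Q g' d U EE' := by
  obtain ⟨g', K', EE', ψ, s, R0, C, c0, e0, θ0, r1, hG⟩ :=
    h0 n hn q g K EE En P Q A hD hA hBV E' hE hP ε hε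
  have hA' : 0 ≤ (1 - ε) * A := mul_nonneg (by linarith) hA
  obtain ⟨N, hN⟩ := h1 n hn _ _ _ _ _ _ _ _ _ _ _ _ _ _ hG hA' (min η ε) (lt_min hη hε)
  refine ⟨EE', N, fun _ => trivial, fun ℓ0 => ?_⟩
  obtain ⟨ℓ, hℓ, g'', d, U, hNeck⟩ := hN ℓ0
  refine ⟨ℓ, hℓ, g'', d, U, hNeck.mono hn (min_le_left _ _) ?_ ?_⟩
  · have := min_le_right η ε; linarith
  · have := min_le_right η ε
    nlinarith

/-- Forget the electric field when the charge vanishes. -/
theorem Neck.forget {η Λ ℓ m A : ℝ} {g : MetricField n} {d U : E n → ℝ}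
    {EE : VectorField n} {Q : ℝ} (h : Neck n η Λ ℓ m A Q g d U EE) (hη : η ≤ 1) :
    Neck n η Λ ℓ m A 0 g d U (fun _ _ => 0) := by
  have hz : ∀ x, eSq g (fun _ _ => 0) x = 0 := fun x => by simp [eSq, vecNormSq]
  have hd : ∀ x, divE (fun (_ : E n) (_ : Fin n) => (0 : ℝ)) x = 0 := fun x => by
    simp [divE, pderiv]
  exact { h with
    R_out := fun x hx => by
      have := h.R_out x hx
      have h0 := eSq_nonneg h.riem EE x
      rw [hz]; nlinarith
    R_neck := fun x h1 hx => by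
      have := h.R_neck x h1 hx
      have h0 := eSq_nonneg h.riem EE x
      rw [hz]; nlinarith
    EE_smooth := fun _ => contDiff_const
    EE_decay := ⟨0, fun x i => by simp⟩
    EE_div := fun x _ => hd x
    charge := by simp [hd] }

theorem PB_pos (hn : 3 ≤ n) {A : ℝ} (hA : 0 < A) : 0 < PB n A := by
  unfold PB
  have := unitSphereArea_pos (n := n) (by omega)
  positivity

theorem continuous_PB (hn : 3 ≤ n) : Continuous (PB n) := by
  unfold PB
  have h : (0 : ℝ) ≤ ((n : ℝ) - 2) / ((n : ℝ) - 1) := by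
    have : (3 : ℝ) ≤ n := by exact_mod_cast hn
    apply div_nonneg <;> linarith
  exact continuous_const.mul ((continuous_id.div_const _).rpow_const fun _ => Or.inr h)

/-- a property that holds at `ε = 0` by a strict inequality of continuous functions holds for a
small positive `ε`. -/
theorem exists_small {f h : ℝ → ℝ} (hf : Continuous f) (hh : Continuous h) (h0 : f 0 < h 0) :
    ∃ ε > 0, ε < 1 ∧ f ε < h ε := by
  have h1 : ∀ᶠ ε in 𝓝 (0 : ℝ), f ε < h ε :=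
    hf.continuousAt.eventually_lt hh.continuousAt h0
  have h2 : ∀ᶠ ε in 𝓝 (0 : ℝ), ε < 1 := eventually_lt_nhds (by norm_num)
  have h3 : ∀ᶠ ε in 𝓝[>] (0 : ℝ), f ε < h ε ∧ ε < 1 := (h1.and h2).filter_mono nhdsWithin_le_nhds
  obtain ⟨ε, ⟨a, b⟩, c⟩ := (h3.and self_mem_nhdsWithin).exists
  exact ⟨ε, c, b, a⟩

theorem coreU (h0 : P0Stmt) (h1 : P1Stmt) (h2 : P2UStmt) (hn : 3 ≤ n) {q : ℝ}
    {g K : MetricField n} {EE : VectorField n} {En : ℝ} {P : E n} {Q A : ℝ}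
    (hD : Data n q g K EE En P Q) (hA : 0 < A) (hBV : BV g (Metric.closedBall 0 1) A) {E' : ℝ}
    (hE : En < E') (hP : ‖P‖ < E') : PB n A ≤ Real.sqrt (E' ^ 2 - ‖P‖ ^ 2) := by
  by_contra hlt
  push Not at hlt
  set m1 := Real.sqrt (E' ^ 2 - ‖P‖ ^ 2) with hm1
  obtain ⟨ε, hε, hε1, hlt'⟩ := exists_small (f := fun ε => m1 + 2 * ε)
    (h := fun ε => PB n ((1 - ε) ^ 2 * A)) (by fun_prop)
    ((continuous_PB hn).comp (by fun_prop)) (by simpa using hlt)
  have hm : 0 < m1 + 2 * ε := by have := Real.sqrt_nonneg (E' ^ 2 - ‖P‖ ^ 2); linarith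
  have hA' : 0 < (1 - ε) ^ 2 * A := mul_pos (pow_pos (by linarith) 2) hA
  obtain ⟨η, hη, hN⟩ := h2 n hn _ _ hm hA' hlt'
  obtain ⟨EE', N, -, hN'⟩ := necks h0 h1 hn hD hA.le hBV hE hP hε hε1.le
    (lt_min hη one_pos : 0 < min η 1)
  obtain ⟨ℓ0, hℓ0⟩ := hN N
  obtain ⟨ℓ, hℓ, g', d, U, hNeck⟩ := hN' ℓ0
  exact hℓ0 ℓ hℓ g' d U
    ((hNeck.forget (min_le_right _ _)).mono hn (min_le_left _ _) le_rfl le_rfl)

theorem coreC (h0 : P0Stmt) (h1 : P1Stmt) (h2 : P2CStmt) {q : ℝ}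
    {g K : MetricField 3} {EE : VectorField 3} {En : ℝ} {P : E 3} {Q A : ℝ}
    (hD : Data 3 q g K EE En P Q) (hQ : 0 ≤ Q) (hA : 0 < A)
    (hBV : BV g (Metric.closedBall 0 1) A) {E' : ℝ} (hE : En < E') (hP : ‖P‖ < E') :
    Q ≤ Real.sqrt (E' ^ 2 - ‖P‖ ^ 2) ∧ Real.sqrt (A / (4 * Real.pi)) ≤
      Real.sqrt (E' ^ 2 - ‖P‖ ^ 2) + Real.sqrt (Real.sqrt (E' ^ 2 - ‖P‖ ^ 2) ^ 2 - Q ^ 2) := by
  set m1 := Real.sqrt (E' ^ 2 - ‖P‖ ^ 2) with hm1
  have key : ∀ ε > 0, ε < 1 → ¬ (m1 + 2 * ε < Q ∨ (m1 + 2 * ε) +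
      Real.sqrt ((m1 + 2 * ε) ^ 2 - Q ^ 2) < Real.sqrt ((1 - ε) ^ 2 * A / (4 * Real.pi))) := by
    intro ε hε hε1 hor
    have hm : 0 < m1 + 2 * ε := by have := Real.sqrt_nonneg (E' ^ 2 - ‖P‖ ^ 2); linarith
    have hA' : 0 < (1 - ε) ^ 2 * A := mul_pos (pow_pos (by linarith) 2) hA
    obtain ⟨η, hη, hN⟩ := h2 _ _ _ hm hA' hQ hor
    obtain ⟨EE', N, -, hN'⟩ := necks h0 h1 le_rfl hD hA.le hBV hE hP hε hε1.le hη
    obtain ⟨ℓ0, hℓ0⟩ := hN N
    obtain ⟨ℓ, hℓ, g', d, U, hNeck⟩ := hN' ℓ0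
    exact hℓ0 ℓ hℓ g' d U EE' hNeck
  constructor
  · by_contra hlt
    push Not at hlt
    obtain ⟨ε, hε, hε1, h⟩ := exists_small (f := fun ε => m1 + 2 * ε) (h := fun _ => Q)
      (by fun_prop) continuous_const (by simpa using hlt)
    exact key ε hε hε1 (Or.inl h)
  · by_contra hlt
    push Not at hlt
    obtain ⟨ε, hε, hε1, h⟩ := exists_small
      (f := fun ε => (m1 + 2 * ε) + Real.sqrt ((m1 + 2 * ε) ^ 2 - Q ^ 2))
      (h := fun ε => Real.sqrt ((1 - ε) ^ 2 * A / (4 * Real.pi)))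
      (by fun_prop) (by fun_prop) (by simpa using hlt)
    exact key ε hε hε1 (Or.inr h)

/-- pass to the limit `E' ↓ max En ‖P‖` in a closed condition. -/
theorem le_of_forall_gt {f h : ℝ → ℝ} (hf : Continuous f) (hh : Continuous h) {a : ℝ}
    (H : ∀ t > a, f t ≤ h t) : f a ≤ h a := by
  have h1 : Tendsto f (𝓝[>] a) (𝓝 (f a)) := hf.continuousAt.tendsto.mono_left nhdsWithin_le_nhds
  have h2 : Tendsto h (𝓝[>] a) (𝓝 (h a)) := hh.continuousAt.tendsto.mono_left nhdsWithin_le_nhds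
  exact le_of_tendsto_of_tendsto h1 h2 (eventually_nhdsWithin_of_forall H)

theorem exists_real_le {a : ℝ≥0∞} (ha : 0 < a) : ∃ A : ℝ, 0 < A ∧ ENNReal.ofReal A ≤ a := by
  by_cases h : a = ⊤
  · exact ⟨1, one_pos, by simp [h]⟩
  · exact ⟨a.toReal, ENNReal.toReal_pos ha.ne' h, by rw [ENNReal.ofReal_toReal h]⟩

theorem mainU (hb : BV0Stmt) (h0 : P0Stmt) (h1 : P1Stmt) (h2 : P2UStmt) (hn : 3 ≤ n) {q : ℝ}
    {g K : MetricField n} {EE : VectorField n} {En : ℝ} {P : E n} {Q : ℝ}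
    (hD : Data n q g K EE En P Q) (hA : 0 < minEnclosingArea g) :
    ‖P‖ < En ∧ PB n (minEnclosingArea g).toReal ≤ Real.sqrt (En ^ 2 - ‖P‖ ^ 2) := by
  have hc : Continuous fun t : ℝ => Real.sqrt (t ^ 2 - ‖P‖ ^ 2) := by fun_prop
  have hlt : ‖P‖ < En := by
    by_contra hle
    push Not at hle
    obtain ⟨A, hA0, hA1⟩ := exists_real_le hA
    have := le_of_forall_gt (f := fun _ => PB n A) continuous_const hc (a := ‖P‖)
      fun t ht => coreU h0 h1 h2 hn hD hA0 (hb n hn g hD.riem A hA1) (lt_of_le_of_lt hle ht) ht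
    have h3 := PB_pos hn hA0
    simp at this
    linarith
  refine ⟨hlt, ?_⟩
  by_cases htop : minEnclosingArea g = ⊤
  · have hα : ((n : ℝ) - 2) / ((n : ℝ) - 1) ≠ 0 := by
      have : (3 : ℝ) ≤ n := by exact_mod_cast hn
      apply div_ne_zero <;> linarith
    simp [htop, PB, Real.zero_rpow hα]
  · have hA0 := ENNReal.toReal_pos hA.ne' htop
    exact le_of_forall_gt (f := fun _ => PB n (minEnclosingArea g).toReal) continuous_const hc
      (a := En) fun t ht => coreU h0 h1 h2 hn hD hA0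
        (hb n hn g hD.riem _ (by rw [ENNReal.ofReal_toReal htop])) ht (hlt.trans ht)

theorem mainC (hb : BV0Stmt) (h0 : P0Stmt) (h1 : P1Stmt) (h2 : P2CStmt) {q : ℝ}
    {g K : MetricField 3} {EE : VectorField 3} {En : ℝ} {P : E 3} {Q : ℝ}
    (hD : Data 3 q g K EE En P Q) (hQ : 0 ≤ Q) (hA : 0 < minEnclosingArea g) :
    ‖P‖ < En ∧ Q ≤ Real.sqrt (En ^ 2 - ‖P‖ ^ 2) ∧
      Real.sqrt ((minEnclosingArea g).toReal / (4 * Real.pi)) ≤
      Real.sqrt (En ^ 2 - ‖P‖ ^ 2) + Real.sqrt (Real.sqrt (En ^ 2 - ‖P‖ ^ 2) ^ 2 - Q ^ 2) := by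
  have hc : Continuous fun t : ℝ => Real.sqrt (t ^ 2 - ‖P‖ ^ 2) := by fun_prop
  have hc2 : Continuous fun t : ℝ => Real.sqrt (t ^ 2 - ‖P‖ ^ 2) +
      Real.sqrt (Real.sqrt (t ^ 2 - ‖P‖ ^ 2) ^ 2 - Q ^ 2) := by fun_prop
  obtain ⟨A, hA0, hA1⟩ := exists_real_le hA
  have hBV := hb 3 le_rfl g hD.riem A hA1
  have hlt : ‖P‖ < En := by
    by_contra hle
    push Not at hle
    have := le_of_forall_gt (f := fun _ => Real.sqrt (A / (4 * Real.pi))) continuous_const hc2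
      (a := ‖P‖) fun t ht => (coreC h0 h1 h2 hD hQ hA0 hBV (lt_of_le_of_lt hle ht) ht).2
    have h3 : 0 < Real.sqrt (A / (4 * Real.pi)) := Real.sqrt_pos.2 (by have := Real.pi_pos; positivity)
    have h4 : Real.sqrt (Real.sqrt (‖P‖ ^ 2 - ‖P‖ ^ 2) ^ 2 - Q ^ 2) = 0 := by
      apply Real.sqrt_eq_zero_of_nonpos
      simp [sq_nonneg]
    simp only [h4] at this
    simp at this
    have h5 : Real.sqrt (A / (4 * Real.pi)) ≤ 0 := by simpa using this
    linarith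
  refine ⟨hlt, ?_, ?_⟩
  · exact le_of_forall_gt (f := fun _ => Q) continuous_const hc (a := En)
      fun t ht => (coreC h0 h1 h2 hD hQ hA0 hBV ht (hlt.trans ht)).1
  · by_cases htop : minEnclosingArea g = ⊤
    · simp only [htop, ENNReal.toReal_top, zero_div, Real.sqrt_zero]
      positivity
    · have hA0' := ENNReal.toReal_pos hA.ne' htop
      exact le_of_forall_gt
        (f := fun _ => Real.sqrt ((minEnclosingArea g).toReal / (4 * Real.pi))) continuous_const hc2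
        (a := En) fun t ht => (coreC h0 h1 h2 hD hQ hA0'
          (hb 3 le_rfl g hD.riem _ (by rw [ENNReal.ofReal_toReal htop])) ht (hlt.trans ht)).2

end Crest.Agent.N346

end
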