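import Crest.Agent.N346.Final
import Crest.Agent.N346.P0.Final
import Crest.Agent.N346.P0.Apos
import Crest.Agent.N346.P0.BV0
import Crest.Agent.N346.P0.Norm
import Crest.Agent.N346.Fin.P2
import Crest.Agent.N346.P1.Main
import Crest.Agent.N346.P1.Setup
import Crest.Agent.N346.P1.Out
import Crest.Agent.N346.An.Main
import Crest.Agent.N346.Br.Main
import Crest.Agent.N346.Br.Str
import Crest.Agent.N346.Br.Cong
import Crest.Agent.N346.Br.Cont
import Crest.Agent.N346.Br.Sch
import Crest.Agent.N346.Bd.Final

/-! Row 346 (helper11): Part 1 with all leaves plugged in. -/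

set_option autoImplicit false

namespace Crest.Agent.N346

theorem p1 : P1Stmt :=
  P1.p1_of P1.setup P1.unif
    (Br.ex Br.cong Bd.ap' (Br.reg An.reg Br.str) (Br.tor An.ex2' Br.cong Br.cont Br.sch))
    Bd.est (Br.lim Br.cong) Bd.en P1.out

end Crest.Agent.N346
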