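import Crest.Agent.N346.Assembly

/-! Row 346: the three frozen statements, conditional on the parts. -/

set_option autoImplicit false
open MeasureTheory Filter Topology
open scoped ContDiff ENNReal
open Crest.GeometryTopology.CoordMetric
open Crest.MathPhysics.ExteriorData

noncomputable section

namespace Crest.Agent.N346

theorem DecaysAt.mono' {n : ℕ} {j j' : ℕ} {a : ℝ} {f : E n → ℝ} (h : DecaysAt j a f) (hj : j' ≤ j) :
    DecaysAt j' a f := fun k hk => h k (hk.trans hj)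

theorem s0542_of (hb : BV0Stmt) (hN : NormUStmt) (h0 : P0Stmt) (h1 : P1Stmt) (h2 : P2UStmt)
    (n : ℕ) (hn : 3 ≤ n) (q : ℝ) (hq : ((n : ℝ) - 2) / 2 < q)
    (g K : MetricField n) (hg : IsRiemannianOn g Set.univ)
    (hK : ∀ i j, ContDiff ℝ ∞ fun x => K x i j) (hKs : ∀ x i j, K x i j = K x j i)
    (hdg : ∀ i j, DecaysAt 2 q fun x => g x i j - (1 : Matrix (Fin n) (Fin n) ℝ) i j)
    (hdK : ∀ i j, DecaysAt 1 (1 + q) fun x => K x i j)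
    (hdec : ∀ x ∈ exteriorRegion n, momentumNorm g K x ≤ energyDensity g K x)
    (htrap : ∀ x : EuclideanSpace ℝ (Fin n), ‖x‖ = 1 → futureExpansion g K x ≤ 0)
    (En : ℝ) (P : EuclideanSpace ℝ (Fin n))
    (hE : Tendsto (energyFlux g) atTop (𝓝 En))
    (hP : ∀ i, Tendsto (fun R => momentumFlux g K R i) atTop (𝓝 (P i)))
    (hA : 0 < minEnclosingArea g) :
    ‖P‖ < En ∧
      (1 / 2) * ((minEnclosingArea g).toReal / unitSphereArea n) ^ (((n : ℝ) - 2) / ((n : ℝ) - 1))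
        ≤ Real.sqrt (En ^ 2 - ‖P‖ ^ 2) := by
  have hD := hN n hn q hq g K hg hK hKs hdg hdK hdec htrap En P hE hP
  have := mainU hb h0 h1 h2 hn hD hA
  rw [norm_neg] at this
  exact this

theorem s0544_of (ha : AposStmt) (hb : BV0Stmt) (hN : NormUStmt) (h0 : P0Stmt) (h1 : P1Stmt)
    (h2 : P2UStmt)
    (n : ℕ) (hn : n = 3 ∨ n = 4) (q : ℝ) (hq : ((n : ℝ) - 2) / 2 < q)
    (g K : MetricField n) (hg : IsRiemannianOn g Set.univ)
    (hK : ∀ i j, ContDiff ℝ ∞ fun x => K x i j) (hKs : ∀ x i j, K x i j = K x j i)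
    (hdg : ∀ i j, DecaysAt 2 q fun x => g x i j - (1 : Matrix (Fin n) (Fin n) ℝ) i j)
    (hdK : ∀ i j, DecaysAt 1 (1 + q) fun x => K x i j)
    (hdec : ∀ x ∈ exteriorRegion n, momentumNorm g K x ≤ energyDensity g K x)
    (htrap : ∀ x : EuclideanSpace ℝ (Fin n), ‖x‖ = 1 → futureExpansion g K x ≤ 0)
    (En : ℝ) (P : EuclideanSpace ℝ (Fin n))
    (hE : Tendsto (energyFlux g) atTop (𝓝 En))
    (hP : ∀ i, Tendsto (fun R => momentumFlux g K R i) atTop (𝓝 (P i))) :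
    0 < minEnclosingArea g ∧ ‖P‖ < En ∧
      (1 / 2) * ((minEnclosingArea g).toReal / unitSphereArea n) ^ (((n : ℝ) - 2) / ((n : ℝ) - 1))
        ≤ Real.sqrt (En ^ 2 - ‖P‖ ^ 2) := by
  have hn3 : 3 ≤ n := by omega
  have hq0 : 0 < q := by
    have : (3 : ℝ) ≤ n := by exact_mod_cast hn3
    linarith
  have hA := ha n hn3 q hq0 g hg fun i j => DecaysAt.mono' (hdg i j) (by norm_num)
  exact ⟨hA, s0542_of hb hN h0 h1 h2 n hn3 q hq g K hg hK hKs hdg hdK hdec htrap En P hE hP hA⟩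

theorem s0543_of (ha : AposStmt) (hb : BV0Stmt) (hN : NormCStmt) (h0 : P0Stmt) (h1 : P1Stmt)
    (h2 : P2CStmt)
    (q : ℝ) (hq : 1 / 2 < q)
    (g K : MetricField 3) (hg : IsRiemannianOn g Set.univ)
    (hK : ∀ i j, ContDiff ℝ ∞ fun x => K x i j) (hKs : ∀ x i j, K x i j = K x j i)
    (Ef B : VectorField 3) (hEs : ∀ i, ContDiff ℝ ∞ fun x => Ef x i)
    (hBs : ∀ i, ContDiff ℝ ∞ fun x => B x i)
    (hdg : ∀ i j, DecaysAt 2 q fun x => g x i j - (1 : Matrix (Fin 3) (Fin 3) ℝ) i j)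
    (hdK : ∀ i j, DecaysAt 1 (1 + q) fun x => K x i j)
    (hdE : ∀ i, DecaysAt 1 2 fun x => Ef x i) (hdB : ∀ i, DecaysAt 1 2 fun x => B x i)
    (hdivE : ∀ x ∈ exteriorRegion 3, gDiv g Ef x = 0)
    (hdivB : ∀ x ∈ exteriorRegion 3, gDiv g B x = 0)
    (hdec : ∀ x ∈ exteriorRegion 3,
      chargedMomentumNorm g K Ef B x ≤ chargedEnergyDensity g K Ef B x)
    (htrap : (∀ x : EuclideanSpace ℝ (Fin 3), ‖x‖ = 1 → futureExpansion g K x ≤ 0) ∨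
      (∀ x : EuclideanSpace ℝ (Fin 3), ‖x‖ = 1 → pastExpansion g K x ≤ 0))
    (En : ℝ) (P : EuclideanSpace ℝ (Fin 3)) (QE QB : ℝ)
    (hE : Tendsto (energyFlux g) atTop (𝓝 En))
    (hP : ∀ i, Tendsto (fun R => momentumFlux g K R i) atTop (𝓝 (P i)))
    (hQE : Tendsto (chargeFlux g Ef) atTop (𝓝 QE))
    (hQB : Tendsto (chargeFlux g B) atTop (𝓝 QB)) :
    ‖P‖ < En ∧ Real.sqrt (‖P‖ ^ 2 + (QE ^ 2 + QB ^ 2)) ≤ En ∧
      Real.sqrt (QE ^ 2 + QB ^ 2) ≤ Real.sqrt (En ^ 2 - ‖P‖ ^ 2) ∧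
      Real.sqrt ((minEnclosingArea g).toReal / (4 * Real.pi)) ≤
        Real.sqrt (En ^ 2 - ‖P‖ ^ 2) +
          Real.sqrt (Real.sqrt (En ^ 2 - ‖P‖ ^ 2) ^ 2 - (QE ^ 2 + QB ^ 2)) := by
  have hA := ha 3 le_rfl q (by linarith) g hg fun i j => DecaysAt.mono' (hdg i j) (by norm_num)
  obtain ⟨K', EE, P', hPP, hD⟩ := hN q hq g K hg hK hKs Ef B hEs hBs hdg hdK hdE hdB hdivE hdivB
    hdec htrap En P QE QB hE hP hQE hQB
  obtain ⟨h3, h4, h5⟩ := mainC hb h0 h1 h2 hD (Real.sqrt_nonneg _) hA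
  rw [hPP] at h3 h4 h5
  have hQ : 0 ≤ QE ^ 2 + QB ^ 2 := by positivity
  rw [Real.sq_sqrt hQ] at h5
  refine ⟨h3, ?_, h4, h5⟩
  have hP0 := norm_nonneg P
  have hEn : 0 ≤ En := by linarith
  have h6 : 0 ≤ En ^ 2 - ‖P‖ ^ 2 := by nlinarith
  have h7 : QE ^ 2 + QB ^ 2 ≤ En ^ 2 - ‖P‖ ^ 2 := (Real.sqrt_le_sqrt_iff h6).1 h4
  exact Real.sqrt_le_iff.2 ⟨hEn, by linarith⟩

end Crest.Agent.N346

end
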